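import Vale.Agent.P181.DU.Defs2
import Vale.Agent.P181.DG8.Core

set_option autoImplicit false

/-!
# P181, DU (V8): the counting part of the assembly
-/

namespace Vale.Agent.P181.DU8

open Vale.Agent.P181.DG Vale.Agent.P181.DU
open Vale.Agent.P181.DG8 (mem_KT card_KT tel sum_pairs)

section

variable {N : Multiset ℕ → ℕ → ℕ} {w S a b J : ℕ}

open scoped Classical in
/-- the lower side -/
lemma core_low (hN : ∀ k t, N k t ≤ N k (t + 1)) (hab : a ≤ b)
    (hc : ∀ k ∈ KT w S, Multiset.card k ≤ a) :
    ∑ k ∈ (KT w S).filter (fun k => ∀ x ∈ k, x ≤ a), N k (a - Multiset.card k) +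
      ∑ p ∈ (KT w S ×ˢ Finset.range (a + 2)).filter (GoodV a b), (N p.1 p.2 - N p.1 (p.2 - 1)) ≤
    ∑ k ∈ (KT w S).filter (fun k => Multiset.card k ≤ b ∧ ∀ x ∈ k, x ≤ a),
      N k (b - Multiset.card k) := by
  have hf : (KT w S).filter (fun k => Multiset.card k ≤ b ∧ ∀ x ∈ k, x ≤ a) =
      (KT w S).filter (fun k => ∀ x ∈ k, x ≤ a) := by
    apply Finset.filter_congr
    intro k hk
    have := hc k hk
    exact ⟨fun h => h.2, fun h => ⟨by omega, h⟩⟩
  rw [hf, sum_pairs (KT w S) (Finset.range (a + 2)) (GoodV a b) (fun k t => N k t - N k (t - 1))]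
  have h1 : ∑ k ∈ KT w S, ∑ t ∈ (Finset.range (a + 2)).filter (fun t => GoodV a b (k, t)),
      (N k t - N k (t - 1)) = ∑ k ∈ (KT w S).filter (fun k => ∀ x ∈ k, x ≤ a),
        ∑ t ∈ Finset.Ioc (a - Multiset.card k) (min (a + 1) (b - Multiset.card k)),
          (N k t - N k (t - 1)) := by
    rw [Finset.sum_filter]
    apply Finset.sum_congr rfl
    intro k hk
    have h2 := hc k hk
    split_ifs with h
    · apply Finset.sum_congr _ fun _ _ => rfl
      ext t
      rw [Finset.mem_filter, Finset.mem_range, Finset.mem_Ioc, le_min_iff]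
      unfold GoodV
      constructor
      · rintro ⟨h3, _, h4, h5, h6⟩
        simp only at h4 h5 h6
        omega
      · rintro ⟨h3, h4, h5⟩
        exact ⟨by omega, h, by simp only; omega, by simp only; omega, by simp only; omega⟩
    · apply Finset.sum_eq_zero
      intro t ht
      rw [Finset.mem_filter] at ht
      exact absurd ht.2.1 h
  rw [h1, ← Finset.sum_add_distrib]
  apply Finset.sum_le_sum
  intro k hk
  rw [Finset.mem_filter] at hk
  have h2 := hc k hk.1
  rw [← tel (hN k) (show a - Multiset.card k ≤ min (a + 1) (b - Multiset.card k) by omega)]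
  exact monotone_nat_of_le_succ (hN k) (by omega)

open scoped Classical in
/-- the upper side -/
lemma core_up (hN : ∀ k t, N k t ≤ N k (t + 1)) (hJ : J ≤ a)
    (hc : ∀ k ∈ KT w S, Multiset.card k ≤ J) :
    ∑ k ∈ (KT w S).filter (fun k => Multiset.card k ≤ a ∧ ∀ x ∈ k, x ≤ b),
      N k (a - Multiset.card k) ≤
    ∑ k ∈ (KT w S).filter (fun k => ∀ x ∈ k, x ≤ a), N k (a - Multiset.card k) +
      (∑ k ∈ (KT w S).filter (fun k => Multiset.card k ≤ J), N k (J - Multiset.card k) +
      ∑ p ∈ (KT w S ×ˢ Finset.range (a + 2)).filter (BadU a (J + 1)),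
        (N p.1 p.2 - N p.1 (p.2 - 1))) := by
  rw [sum_pairs (KT w S) (Finset.range (a + 2)) (BadU a (J + 1))
    (fun k t => N k t - N k (t - 1))]
  have hf : (KT w S).filter (fun k => Multiset.card k ≤ J) = KT w S :=
    Finset.filter_true_of_mem hc
  rw [hf, ← Finset.sum_add_distrib, Finset.sum_filter, Finset.sum_filter,
    ← Finset.sum_add_distrib]
  apply Finset.sum_le_sum
  intro k hk
  have h1 := hc k hk
  by_cases h : ∀ x ∈ k, x ≤ a
  · rw [if_pos h]
    split_ifs
    · omega
    · omega
  · rw [if_neg h]
    split_ifs with h2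
    · rw [zero_add, tel (hN k) (show J - Multiset.card k ≤ a - Multiset.card k by omega)]
      apply Nat.add_le_add_left
      apply Finset.sum_le_sum_of_subset
      intro t ht
      rw [Finset.mem_Ioc] at ht
      rw [Finset.mem_filter, Finset.mem_range]
      push Not at h
      exact ⟨by omega, h, by simp only; omega, by simp only; omega, by simp only; omega⟩
    · exact Nat.zero_le _

open scoped Classical in
/-- the marks: from the letter `a` to the good states `({t}, a)` -/
lemma core_mark (hD : DisG S fun k t => N k t - N k (t - 1)) {t1 : ℕ} (hS : 1 ≤ S) (hSJ : S ≤ J)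
    (ht1 : t1 + 3 ≤ a) (haw : a ≤ w) (hab : a + 1 ≤ b) :
    ∑ t ∈ Finset.Ioc J t1, (N {a} t - N {a} (t - 1)) ≤
      ∑ p ∈ (KT w S ×ˢ Finset.range (a + 2)).filter (GoodV a b),
        (N p.1 p.2 - N p.1 (p.2 - 1)) := by
  calc ∑ t ∈ Finset.Ioc J t1, (N {a} t - N {a} (t - 1))
      ≤ ∑ t ∈ Finset.Ioc J t1, (N {t} a - N {t} (a - 1)) := by
        apply Finset.sum_le_sum
        intro t ht
        rw [Finset.mem_Ioc] at ht
        have h1 := hD 0 {t} a (a - t) t (by omega) (by omega) (Multiset.nodup_singleton t)
          (fun x hx => by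
            rw [Multiset.mem_singleton] at hx
            exact ⟨by omega, Multiset.notMem_zero _, by omega⟩)
          (by rw [Multiset.sum_singleton]; omega)
          (Or.inr ⟨by omega, by rw [Multiset.sum_singleton]⟩)
        rw [add_zero] at h1
        have h2 : t + (a - t) = a := by omega
        simp only [h2] at h1
        exact h1
    _ = ∑ p ∈ (Finset.Ioc J t1).image (fun t => (({t} : Multiset ℕ), a)),
        (N p.1 p.2 - N p.1 (p.2 - 1)) := by
        rw [Finset.sum_image]
        intro t _ t' _ h
        have h1 : (({t} : Multiset ℕ), a) = (({t'} : Multiset ℕ), a) := h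
        rw [Prod.mk.injEq, Multiset.singleton_inj] at h1
        exact h1.1
    _ ≤ _ := by
        apply Finset.sum_le_sum_of_subset
        intro p hp
        rw [Finset.mem_image] at hp
        obtain ⟨t, ht, rfl⟩ := hp
        rw [Finset.mem_Ioc] at ht
        rw [Finset.mem_filter, Finset.mem_product, Finset.mem_range, mem_KT hS]
        refine ⟨⟨⟨?_, ?_⟩, by simp only; omega⟩, ?_, ?_, ?_, ?_⟩
        · simp only [Multiset.sum_singleton]
          omega
        · intro x hx
          simp only [Multiset.mem_singleton] at hx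
          omega
        · intro x hx
          simp only [Multiset.mem_singleton] at hx
          omega
        · simp only [Multiset.card_singleton]
          omega
        · simp only
          omega
        · simp only [Multiset.card_singleton]
          omega

end

end Vale.Agent.P181.DU8
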