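import Vale.Agent.P181.DU8.Core
import Vale.Agent.P181.DU.Shift

set_option autoImplicit false

/-!
# P181, DU (W8): the counting part of the assembly, letters `≤ b`
-/

namespace Vale.Agent.P181.DU8

open Vale.Agent.P181.DG Vale.Agent.P181.DU Vale.Agent.P181.DU.S317
open Vale.Agent.P181.DG8 (mem_KT card_KT tel sum_pairs)

section

variable {N : Multiset ℕ → ℕ → ℕ} {w S a b J : ℕ}

open scoped Classical in
/-- the upper side -/
lemma core_upW (hN : ∀ k t, N k t ≤ N k (t + 1)) (hJ : J ≤ a)
    (hc : ∀ k ∈ KT w S, Multiset.card k ≤ J) :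
    ∑ k ∈ (KT w S).filter (fun k => Multiset.card k ≤ a ∧ ∀ x ∈ k, x ≤ b),
      N k (a - Multiset.card k) ≤
    ∑ k ∈ (KT w S).filter (fun k => ∀ x ∈ k, x ≤ a), N k (a - Multiset.card k) +
      (∑ k ∈ (KT w S).filter (fun k => Multiset.card k ≤ J), N k (J - Multiset.card k) +
      ∑ p ∈ (KT w S ×ˢ Finset.range (a + 2)).filter (BadW a b (J + 1)),
        (N p.1 p.2 - N p.1 (p.2 - 1))) := by
  rw [sum_pairs (KT w S) (Finset.range (a + 2)) (BadW a b (J + 1))
    (fun k t => N k t - N k (t - 1))]
  have hf : (KT w S).filter (fun k => Multiset.card k ≤ J) = KT w S :=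
    Finset.filter_true_of_mem hc
  rw [hf, ← Finset.sum_add_distrib, Finset.sum_filter, Finset.sum_filter,
    ← Finset.sum_add_distrib]
  apply Finset.sum_le_sum
  intro k hk
  have h1 := hc k hk
  by_cases h : ∀ x ∈ k, x ≤ a
  · rw [if_pos h]
    split_ifs
    · omega
    · omega
  · rw [if_neg h]
    split_ifs with h2
    · rw [zero_add, tel (hN k) (show J - Multiset.card k ≤ a - Multiset.card k by omega)]
      apply Nat.add_le_add_left
      apply Finset.sum_le_sum_of_subset
      intro t ht
      rw [Finset.mem_Ioc] at ht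
      rw [Finset.mem_filter, Finset.mem_range]
      push Not at h
      exact ⟨by omega, h, h2.2, by simp only; omega, by simp only; omega, by simp only; omega⟩
    · exact Nat.zero_le _

end

end Vale.Agent.P181.DU8
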